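import Mathlib
import Vale.Agent.P198.S2.Interface
import Vale.Agent.P198.TL.LLC
import Vale.Agent.P198.Q.Doubling

/-!
# P198, Stage 2, block RD: weak quasisymmetry of a local chart implies `LChart` (all ratios)
-/

open Metric Set TopologicalSpace MeasureTheory Filter Topology
open P198S2 P198Q

namespace P198R

variable {G Z : Type*} [Group G] [MetricSpace Z] [MulAction G Z]

theorem sc_pos' (k : ℕ) : 0 < sc k := by unfold sc; positivity

theorem sc_add' (k l : ℕ) : sc (k + l) = sc k * sc l := by unfold sc; rw [pow_add]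

/-- local form of the upgrade. -/
theorem upgrade_local (e : OpenPartialHomeomorph Z ℂ) {Λ r₀ lam H T R : ℝ} {D : ℝ → ℝ} {Q : ℕ}
    (hD : Doubling Z D Q) (hΛ : 1 ≤ Λ)
    (llc : ∀ x y : Z, dist x y ≤ r₀ → ∃ K : Set Z, IsCompact K ∧ IsConnected K ∧ x ∈ K ∧ y ∈ K ∧
        K ⊆ closedBall x (Λ * dist x y))
    (hlam : 2 ≤ lam) (hH : 1 ≤ H) (hT : 1 ≤ T) {B : Set Z} (hB : B ⊆ e.source)
    (hw : ∀ x ∈ B, ∀ y ∈ B, ∀ z ∈ B, lam * dist x y ≤ dist x z → ‖e y - e x‖ ≤ H * ‖e z - e x‖)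
    {l N : ℕ} (hl : sc l ≤ 1 / (4 * lam ^ 2)) (hN : D (Λ * T) * 2 ^ (Q * l) ≤ N)
    {y a b : Z} (hR : R = dist y b) (hR0 : 0 < R) (hR1 : R ≤ 1) (ha0 : dist y a ≤ r₀)
    (hb0 : dist y b ≤ r₀)
    (hball : closedBall y (Λ * dist y a) ⊆ B) (hballb : closedBall y (Λ * dist y b) ⊆ B)
    (hab : dist y a ≤ T * dist y b) :
    ‖e y - e a‖ ≤ (2 * H ^ 2 + 2) ^ N * ‖e y - e b‖ := by
  classical
  by_contra hcon
  push Not at hcon
  set m := ‖e y - e b‖ with hm
  set β : ℝ := 2 * H ^ 2 + 2 with hβ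
  have hβ1 : 1 ≤ β := by nlinarith [sq_nonneg H]
  have hlam0 : 0 < lam := by linarith
  obtain ⟨Ka, hKac, hKaconn, hyKa, haKa, hKaB⟩ := llc y a ha0
  obtain ⟨Kb, hKbc, hKbconn, hyKb, hbKb, hKbB⟩ := llc y b hb0
  have hyB : y ∈ B := hball (mem_closedBall_self (by positivity))
  have hbB : b ∈ B := hballb (hKbB hbKb)
  have hm0 : 0 < m := by
    rw [hm, norm_pos_iff, sub_ne_zero]
    intro h
    have := e.injOn (hB hyB) (hB hbB) h
    rw [hR, this, dist_self] at hR0
    exact lt_irrefl _ hR0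
  -- the reference point `y*`
  obtain ⟨ys, hysK, hys⟩ : ∃ w ∈ Kb, dist y w = R / lam := by
    have h1 : Icc (dist y y) (dist y b) ⊆ (fun w => dist y w) '' Kb :=
      hKbconn.isPreconnected.intermediate_value hyKb hbKb
        (continuous_const.dist continuous_id).continuousOn
    have h2 : R / lam ∈ Icc (dist y y) (dist y b) := by
      rw [dist_self, ← hR]
      exact ⟨by positivity, div_le_self hR0.le (by linarith)⟩
    obtain ⟨w, hw1, hw2⟩ := h1 h2
    exact ⟨w, hw1, hw2⟩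
  have hysB : ys ∈ B := hballb (hKbB hysK)
  have hysm : ‖e ys - e y‖ ≤ H * m := by
    have := hw y hyB ys hysB b hbB (by rw [hys, ← hR, mul_div_cancel₀ _ hlam0.ne'])
    rwa [norm_sub_rev (e b)] at this
  -- the points `p i`
  have hivp : ∀ i : Fin (N + 1), ∃ w ∈ Ka, ‖e w - e y‖ = β ^ (i : ℕ) * m := by
    intro i
    have hcont : ContinuousOn (fun w => ‖e w - e y‖) Ka :=
      ((e.continuousOn.mono ((hKaB.trans hball).trans hB)).sub continuousOn_const).norm
    have h1 : Icc (‖e y - e y‖) (‖e a - e y‖) ⊆ (fun w => ‖e w - e y‖) '' Ka :=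
      hKaconn.isPreconnected.intermediate_value hyKa haKa hcont
    have h2 : β ^ (i : ℕ) * m ∈ Icc (‖e y - e y‖) (‖e a - e y‖) := by
      rw [sub_self, norm_zero, norm_sub_rev (e a)]
      refine ⟨by positivity, ?_⟩
      refine le_trans ?_ hcon.le
      gcongr
      have := i.2; omega
    obtain ⟨w, hw1, hw2⟩ := h1 h2
    exact ⟨w, hw1, hw2⟩
  choose p hpK hpn using hivp
  have hpB : ∀ i, p i ∈ B := fun i => hball (hKaB (hpK i))
  have hsep : ∀ i j, i < j → R / (2 * lam ^ 2) ≤ dist (p i) (p j) := by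
    intro i j hij
    by_contra hlt
    push Not at hlt
    -- a far reference point
    obtain ⟨w, hwB, hwd, hwn⟩ : ∃ w ∈ B, R / (2 * lam) ≤ dist (p i) w ∧ ‖e w - e y‖ ≤ H * m := by
      by_cases h : R / (2 * lam) ≤ dist (p i) y
      · exact ⟨y, hyB, h, by rw [sub_self, norm_zero]; positivity⟩
      · refine ⟨ys, hysB, ?_, hysm⟩
        push Not at h
        have h1 := dist_triangle_left y ys (p i)
        rw [hys] at h1
        have h2 : R / lam = R / (2 * lam) + R / (2 * lam) := by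
          field_simp; ring
        linarith
    have h1 : lam * dist (p i) (p j) ≤ dist (p i) w := by
      refine le_trans ?_ hwd
      calc lam * dist (p i) (p j) ≤ lam * (R / (2 * lam ^ 2)) := by gcongr
        _ = R / (2 * lam) := by field_simp
    have h2 := hw (p i) (hpB i) (p j) (hpB j) w hwB h1
    have h3 : ‖e w - e (p i)‖ ≤ H * m + β ^ (i : ℕ) * m := by
      rw [← hpn i]
      calc ‖e w - e (p i)‖ = ‖(e w - e y) - (e (p i) - e y)‖ := by congr 1; ring
        _ ≤ ‖e w - e y‖ + ‖e (p i) - e y‖ := norm_sub_le _ _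
        _ ≤ _ := by gcongr
    have h4 : β ^ (j : ℕ) * m - β ^ (i : ℕ) * m ≤ ‖e (p j) - e (p i)‖ := by
      rw [← hpn i, ← hpn j]
      have := norm_sub_norm_le (e (p j) - e y) (e (p i) - e y)
      have h5 : (e (p j) - e y) - (e (p i) - e y) = e (p j) - e (p i) := by ring
      rwa [h5] at this
    have hpow1 : 1 ≤ β ^ (i : ℕ) := one_le_pow₀ hβ1
    have h6 : β ^ (i : ℕ) * β ≤ β ^ (j : ℕ) := by
      rw [← pow_succ]
      exact pow_le_pow_right₀ hβ1 hij
    have h7 : H * (H * m + β ^ (i : ℕ) * m) ≤ 2 * H ^ 2 * (β ^ (i : ℕ) * m) := by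
      have e1 : m ≤ β ^ (i : ℕ) * m := le_mul_of_one_le_left hm0.le hpow1
      have e2 : H * (β ^ (i : ℕ) * m) ≤ H ^ 2 * (β ^ (i : ℕ) * m) := by
        have : H ≤ H ^ 2 := by nlinarith
        gcongr
      have e3 : H * (H * m) ≤ H ^ 2 * (β ^ (i : ℕ) * m) := by
        calc H * (H * m) = H ^ 2 * m := by ring
          _ ≤ _ := by gcongr
      linarith
    have h8 : β ^ (i : ℕ) * β * m ≤ β ^ (j : ℕ) * m := by gcongr
    have h9 : ‖e (p j) - e (p i)‖ ≤ 2 * H ^ 2 * (β ^ (i : ℕ) * m) := by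
      refine h2.trans (le_trans ?_ h7)
      gcongr
    have h10 : 0 < β ^ (i : ℕ) * m := by positivity
    have h11 : β ^ (i : ℕ) * β * m = (2 * H ^ 2 + 2) * (β ^ (i : ℕ) * m) := by
      rw [hβ]; ring
    linarith
  have hsep' : ∀ i j, i ≠ j → R / (2 * lam ^ 2) ≤ dist (p i) (p j) := by
    intro i j hij
    rcases lt_or_gt_of_ne hij with h | h
    · exact hsep i j h
    · rw [dist_comm]; exact hsep j i h
  have hinj : Function.Injective p := by
    intro i j hij
    by_contra hne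
    have := hsep' i j hne
    rw [hij, dist_self] at this
    have : 0 < R / (2 * lam ^ 2) := by positivity
    linarith
  -- scale
  obtain ⟨k, hk1, hk2⟩ := exists_nat_pow_near_of_lt_one hR0 hR1
    (by norm_num : (0:ℝ) < 1 / 2) (by norm_num : (1:ℝ) / 2 < 1)
  have hk1' : sc (k + 1) < R := hk1
  have hk2' : R ≤ sc k := hk2
  have hcard := hD (Λ * T) k l y (Finset.univ.image p) (by positivity) (by
      intro x hx
      obtain ⟨i, -, rfl⟩ := Finset.mem_image.1 hx
      have h1 := hKaB (hpK i)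
      rw [mem_closedBall] at h1
      calc dist (p i) y ≤ Λ * dist y a := h1
        _ ≤ Λ * (T * R) := by rw [hR]; gcongr
        _ ≤ Λ * (T * sc k) := by gcongr
        _ = Λ * T * sc k := by ring) (by
      intro x hx x' hx' hne
      obtain ⟨i, -, rfl⟩ := Finset.mem_image.1 hx
      obtain ⟨j, -, rfl⟩ := Finset.mem_image.1 hx'
      have hij : i ≠ j := fun h => hne (by rw [h])
      refine le_trans ?_ (hsep' i j hij)
      rw [sc_add']
      have h1 : sc (k + 1) = sc k / 2 := by unfold sc; rw [pow_succ]; ring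
      calc sc k * sc l ≤ sc k * (1 / (4 * lam ^ 2)) := by
            have := (sc_pos' k).le
            gcongr
        _ = sc (k + 1) / (2 * lam ^ 2) := by rw [h1]; field_simp; ring
        _ ≤ R / (2 * lam ^ 2) := by gcongr)
  rw [Finset.card_image_of_injective _ hinj, Finset.card_univ, Fintype.card_fin] at hcard
  have : ((N + 1 : ℕ) : ℝ) ≤ N := hcard.trans hN
  push_cast at this
  linarith

/-- **weak quasisymmetry upgrades to `LChart`.** -/
theorem lchart_of_wqs [CompactSpace Z] (q : QM G Z)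
    (t1 : ∀ ε : ℝ, 0 < ε → ∃ δ : ℝ, 0 < δ ∧ ∀ x y : Z, dist x y < δ →
      ∃ K : Set Z, IsCompact K ∧ IsConnected K ∧ x ∈ K ∧ y ∈ K ∧ diam K < ε)
    (e : OpenPartialHomeomorph Z ℂ) (hne : e.source.Nonempty) (lam₀ H₀ : ℝ)
    (hw₀ : ∀ z ∈ e.source, ∃ r : ℝ, 0 < r ∧ ball z r ⊆ e.source ∧
      ∀ x ∈ ball z r, ∀ y ∈ ball z r, ∀ w ∈ ball z r, lam₀ * dist x y ≤ dist x w →
        ‖e y - e x‖ ≤ H₀ * ‖e w - e x‖) :
    LChart e := by
  refine ⟨hne, ?_⟩
  intro T₀
  obtain ⟨Λ, r₀, hΛ, hr₀, llc⟩ := P198T.llc q t1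
  obtain ⟨D, Q, -, hD⟩ := doubling q
  set lam := max 2 lam₀ with hlamdef
  set H := max 1 H₀ with hHdef
  set T := max 1 T₀ with hTdef
  have hlam : 2 ≤ lam := le_max_left _ _
  have hH : 1 ≤ H := le_max_left _ _
  have hT : 1 ≤ T := le_max_left _ _
  obtain ⟨l, hl⟩ := exists_pow_lt_of_lt_one (show (0:ℝ) < 1 / (4 * lam ^ 2) by positivity)
    (by norm_num : (1:ℝ) / 2 < 1)
  obtain ⟨N, hN⟩ := exists_nat_ge (D (Λ * T) * 2 ^ (Q * l))
  refine ⟨(2 * H ^ 2 + 2) ^ N, ?_⟩
  intro z hz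
  obtain ⟨r, hr, hrS, hrw⟩ := hw₀ z hz
  have hΛ0 : 0 < Λ := by linarith
  set ρ := min (min (r₀ / 2) (1 / 2)) (r / (4 * Λ)) with hρ
  have hρ0 : 0 < ρ := by
    refine lt_min (lt_min (by positivity) (by norm_num)) (by positivity)
  have hρr₀ : ρ ≤ r₀ / 2 := (min_le_left _ _).trans (min_le_left _ _)
  have hρ1 : ρ ≤ 1 / 2 := (min_le_left _ _).trans (min_le_right _ _)
  have hρr : ρ ≤ r / (4 * Λ) := min_le_right _ _
  have hρr' : 4 * Λ * ρ ≤ r := by
    rw [le_div_iff₀ (by positivity)] at hρr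
    linarith
  have hρler : ρ ≤ r := by nlinarith
  refine ⟨ρ, hρ0, (ball_subset_ball hρler).trans hrS, ?_⟩
  intro y hy a ha b hb hab₀
  have hab : dist y a ≤ T * dist y b :=
    hab₀.trans (mul_le_mul_of_nonneg_right (le_max_right _ _) dist_nonneg)
  have hya : dist y a < 2 * ρ := by
    have := dist_triangle_right y a z
    rw [mem_ball] at hy ha
    linarith
  have hyb : dist y b < 2 * ρ := by
    have := dist_triangle_right y b z
    rw [mem_ball] at hy hb
    linarith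
  rcases (dist_nonneg (x := y) (y := b)).eq_or_lt with h0 | h0
  · have : dist y a ≤ 0 := by rw [← h0, mul_zero] at hab; exact hab
    have hya' : y = a := dist_le_zero.1 this
    rw [hya', sub_self, norm_zero]
    positivity
  have hsub : ∀ t, t < 2 * ρ → closedBall y (Λ * t) ⊆ ball z r := by
    intro t ht x hx
    rw [mem_closedBall] at hx
    rw [mem_ball] at hy ⊢
    have := dist_triangle x y z
    have h2 : Λ * t ≤ Λ * (2 * ρ) := by gcongr
    nlinarith
  refine upgrade_local e hD hΛ llc hlam hH hT hrS ?_ (le_of_lt hl) hN (R := dist y b) rfl h0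
    (by linarith) (by linarith) (by linarith) (hsub _ hya) (hsub _ hyb) hab
  intro x hx y' hy' w hw' hd
  refine (hrw x hx y' hy' w hw' (le_trans ?_ hd)).trans ?_
  · gcongr
    exact le_max_right _ _
  · gcongr
    exact le_max_right _ _

end P198R
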