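import Mathlib
import Vale.Agent.P198.S2.Interface

/-!
# P198, Stage 2, block RD: small-scale roundness of the transition maps `e ∘ g ∘ e⁻¹`

with one constant for all `g`.
-/

open Metric Set TopologicalSpace MeasureTheory Filter Topology
open P198S2 P198Q

namespace P198R

/-- small-scale roundness, locally uniform in the point, one constant `H`. -/
def LocH (γ : OpenPartialHomeomorph ℂ ℂ) (H : ℝ) : Prop :=
  ∀ x₀ ∈ γ.source, ∃ r₀ > 0, ∀ x ∈ ball x₀ r₀, ∀ r, 0 < r → r ≤ r₀ →
    (diam (γ '' closedBall x r)) ^ 2 ≤ H * (volume (γ '' closedBall x r)).toReal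

/-- disc inclusion. -/
theorem ball_subset_image (γ : OpenPartialHomeomorph ℂ ℂ) {x : ℂ} {r l : ℝ} (hr : 0 < r)
    (hs : closedBall x r ⊆ γ.source) (hl : 0 < l)
    (h : ∀ w ∈ sphere x r, l ≤ dist (γ w) (γ x)) :
    ball (γ x) l ⊆ γ '' closedBall x r := by
  have hopen : IsOpen (γ '' ball x r) :=
    γ.isOpen_image_of_subset_source isOpen_ball (ball_subset_closedBall.trans hs)
  have hcomp : IsCompact (γ '' closedBall x r) :=
    (isCompact_closedBall x r).image_of_continuousOn (γ.continuousOn.mono hs)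
  have hsub : ball (γ x) l ⊆ γ '' ball x r := by
    refine (convex_ball (γ x) l).isPreconnected.subset_of_closure_inter_subset hopen ?_ ?_
    · exact ⟨γ x, mem_ball_self hl, mem_image_of_mem _ (mem_ball_self hr)⟩
    · rintro y ⟨hy1, hy2⟩
      have hy3 : y ∈ γ '' closedBall x r :=
        (closure_minimal (image_mono ball_subset_closedBall) hcomp.isClosed) hy1
      obtain ⟨w, hw, rfl⟩ := hy3
      rcases (mem_closedBall.1 hw).lt_or_eq with h1 | h1
      · exact mem_image_of_mem _ (mem_ball.2 h1)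
      · exact absurd (mem_ball.1 hy2) (not_lt.2 (h w (mem_sphere.2 h1)))
  exact hsub.trans (image_mono ball_subset_closedBall)

theorem diam_sq_le (γ : OpenPartialHomeomorph ℂ ℂ) {x : ℂ} {r K : ℝ} (hr : 0 < r)
    (hs : closedBall x r ⊆ γ.source) (hK0 : 0 ≤ K)
    (hK : ∀ w₁ ∈ closedBall x r, ∀ w₂ ∈ sphere x r, dist (γ w₁) (γ x) ≤ K * dist (γ w₂) (γ x)) :
    (diam (γ '' closedBall x r)) ^ 2 ≤
      (4 * K ^ 2 / Real.pi) * (volume (γ '' closedBall x r)).toReal := by
  have hxs : x ∈ γ.source := hs (mem_closedBall_self hr.le)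
  -- minimum over the sphere
  have hne : (sphere x r).Nonempty := NormedSpace.sphere_nonempty.2 hr.le
  have hcont : ContinuousOn (fun w => dist (γ w) (γ x)) (sphere x r) :=
    (continuous_id.dist continuous_const).comp_continuousOn
      (γ.continuousOn.mono (sphere_subset_closedBall.trans hs))
  obtain ⟨w₀, hw₀, hmin⟩ := (isCompact_sphere x r).exists_isMinOn hne hcont
  set l := dist (γ w₀) (γ x) with hldef
  have hl : 0 < l := by
    rw [hldef, dist_pos]
    intro h
    have := γ.injOn (hs (sphere_subset_closedBall hw₀)) hxs h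
    rw [this] at hw₀
    simp at hw₀
    exact hr.ne hw₀
  have hmin' : ∀ w ∈ sphere x r, l ≤ dist (γ w) (γ x) := fun w hw => hmin hw
  have hinc := ball_subset_image γ hr hs hl hmin'
  have hcomp : IsCompact (γ '' closedBall x r) :=
    (isCompact_closedBall x r).image_of_continuousOn (γ.continuousOn.mono hs)
  have hvol : Real.pi * l ^ 2 ≤ (volume (γ '' closedBall x r)).toReal := by
    have h1 : volume (ball (γ x) l) ≤ volume (γ '' closedBall x r) := measure_mono hinc
    have h2 : (volume (ball (γ x) l)).toReal = Real.pi * l ^ 2 := by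
      rw [Complex.volume_ball]
      simp [ENNReal.toReal_ofReal hl.le, mul_comm]
    rw [← h2]
    exact ENNReal.toReal_mono hcomp.measure_lt_top.ne h1
  have hdiam : diam (γ '' closedBall x r) ≤ 2 * (K * l) := by
    refine diam_le_of_subset_closedBall (by positivity) (x := γ x) ?_
    rintro _ ⟨w, hw, rfl⟩
    exact hK w hw w₀ hw₀
  have hd0 : 0 ≤ diam (γ '' closedBall x r) := diam_nonneg
  calc (diam (γ '' closedBall x r)) ^ 2 ≤ (2 * (K * l)) ^ 2 := by gcongr
    _ = (4 * K ^ 2 / Real.pi) * (Real.pi * l ^ 2) := by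
        field_simp
        ring
    _ ≤ _ := by gcongr

/-- packing in the plane. -/
theorem packing (η : ℝ) (hη : 0 < η) : ∃ N : ℕ, ∀ (x : ℂ) (r : ℝ), 0 < r →
    ∀ p : Fin (N + 1) → ℂ, (∀ i, dist (p i) x ≤ r) → ∃ i j, i < j ∧ dist (p i) (p j) < η * r := by
  obtain ⟨t, -, htf, htc⟩ := (isCompact_closedBall (0 : ℂ) 1).finite_cover_balls
    (e := η / 2) (by positivity)
  obtain ⟨T, rfl⟩ := htf.exists_finset_coe
  refine ⟨T.card, fun x r hr p hp => ?_⟩
  have hmem : ∀ i, (p i - x) / (r : ℂ) ∈ closedBall (0 : ℂ) 1 := by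
    intro i
    rw [mem_closedBall, dist_zero_right, norm_div, Complex.norm_real, Real.norm_eq_abs,
      abs_of_pos hr, div_le_one hr, ← dist_eq_norm]
    exact hp i
  have hch : ∀ i, ∃ c ∈ T, (p i - x) / (r : ℂ) ∈ ball c (η / 2) := by
    intro i
    have := htc (hmem i)
    simpa using this
  choose c hcT hcb using hch
  obtain ⟨i, -, j, -, hij, hc⟩ := Finset.exists_ne_map_eq_of_card_lt_of_maps_to
    (s := (Finset.univ : Finset (Fin (T.card + 1)))) (t := T) (f := c) (by simp)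
    (fun i _ => hcT i)
  have hdist : dist (p i) (p j) < η * r := by
    have h1 := hcb i
    have h2 := hcb j
    rw [← hc] at h2
    have h3 : dist ((p i - x) / (r : ℂ)) ((p j - x) / (r : ℂ)) < η := by
      calc _ ≤ dist ((p i - x) / (r : ℂ)) (c i) + dist (c i) ((p j - x) / (r : ℂ)) :=
            dist_triangle _ _ _
        _ < η / 2 + η / 2 := add_lt_add (mem_ball.1 h1) (by rw [dist_comm]; exact mem_ball.1 h2)
        _ = η := by ring
    rw [dist_eq_norm, ← sub_div, norm_div, Complex.norm_real, Real.norm_eq_abs, abs_of_pos hr,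
      div_lt_iff₀ hr] at h3
    rw [dist_eq_norm]
    have h4 : p i - x - (p j - x) = p i - p j := by ring
    rw [h4] at h3
    exact h3
  rcases lt_or_gt_of_ne hij with h | h
  · exact ⟨i, j, h, hdist⟩
  · exact ⟨j, i, h, by rw [dist_comm]; exact hdist⟩

/-- inverse quasisymmetry on small discs. -/
theorem claimA {Z : Type*} [MetricSpace Z] (e : OpenPartialHomeomorph Z ℂ) (H : ℝ) (hH : 1 ≤ H) :
    ∃ Λ : ℝ, 1 ≤ Λ ∧ ∀ B : Set Z,
      (∀ y ∈ B, ∀ z' ∈ B, ∀ z'' ∈ B, dist y z' ≤ 1 / 2 * dist y z'' →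
        ‖e y - e z'‖ ≤ H * ‖e y - e z''‖) →
      ∀ (x : ℂ) (r : ℝ), 0 < r → closedBall x r ⊆ e.target → e.symm '' closedBall x r ⊆ B →
      ∀ w₁ ∈ closedBall x r, ∀ w₂ ∈ sphere x r,
        dist (e.symm x) (e.symm w₁) ≤ Λ * dist (e.symm x) (e.symm w₂) := by
  have hH0 : 0 < H := lt_of_lt_of_le one_pos hH
  obtain ⟨N, hN⟩ := packing (1 / H ^ 2) (by positivity)
  refine ⟨4 ^ (N + 1), one_le_pow₀ (by norm_num), ?_⟩
  intro B hB x r hr ht hDB w₁ hw₁ w₂ hw₂
  by_contra hcon
  push Not at hcon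
  set z := e.symm x with hz
  set z₁ := e.symm w₁ with hz₁
  set z₂ := e.symm w₂ with hz₂
  have hxT : x ∈ e.target := ht (mem_closedBall_self hr.le)
  have hw₂c : w₂ ∈ closedBall x r := sphere_subset_closedBall hw₂
  have hez : e z = x := e.right_inv hxT
  have hez₂ : e z₂ = w₂ := e.right_inv (ht hw₂c)
  set D := e.symm '' closedBall x r with hD
  have hzD : z ∈ D := mem_image_of_mem _ (mem_closedBall_self hr.le)
  have hz₁D : z₁ ∈ D := mem_image_of_mem _ hw₁
  have hz₂D : z₂ ∈ D := mem_image_of_mem _ hw₂c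
  have hDconn : IsPreconnected D :=
    ((convex_closedBall x r).isPreconnected).image _ (e.symm.continuousOn.mono ht)
  have hd₂ : 0 < dist z z₂ := by
    rw [dist_pos]
    intro h
    have h1 : e z = e z₂ := by rw [h]
    rw [hez, hez₂] at h1
    rw [← h1] at hw₂
    simp at hw₂
    exact hr.ne hw₂
  have hiv : Icc (dist z z) (dist z z₁) ⊆ (fun y => dist z y) '' D :=
    hDconn.intermediate_value hzD hz₁D (continuous_const.dist continuous_id).continuousOn
  have hpow : ∀ i : Fin (N + 1), (4 : ℝ) ^ ((i : ℕ) + 1) ≤ 4 ^ (N + 1) := by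
    intro i
    exact pow_le_pow_right₀ (by norm_num) (by have := i.2; omega)
  have hex : ∀ i : Fin (N + 1), ∃ y ∈ D, dist z y = 4 ^ ((i : ℕ) + 1) * dist z z₂ := by
    intro i
    have : (4 : ℝ) ^ ((i : ℕ) + 1) * dist z z₂ ∈ Icc (dist z z) (dist z z₁) := by
      constructor
      · rw [dist_self]; positivity
      · exact (mul_le_mul_of_nonneg_right (hpow i) hd₂.le).trans hcon.le
    obtain ⟨y, hy, hy'⟩ := hiv this
    exact ⟨y, hy, hy'⟩
  choose y hyD hyd using hex
  have hey : ∀ i, dist (e (y i)) x ≤ r := by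
    intro i
    obtain ⟨w, hw, hwy⟩ := hyD i
    rw [← hwy, e.right_inv (ht hw)]
    exact hw
  have hlow : ∀ i, r ≤ H * ‖e z - e (y i)‖ := by
    intro i
    have h1 := hB z (hDB hzD) z₂ (hDB hz₂D) (y i) (hDB (hyD i)) (by
      rw [hyd i]
      have : (4 : ℝ) ^ 1 ≤ 4 ^ ((i : ℕ) + 1) := pow_le_pow_right₀ (by norm_num) (by omega)
      nlinarith)
    rw [hez, hez₂] at h1
    rw [mem_sphere, dist_eq_norm] at hw₂
    rw [norm_sub_rev, hw₂] at h1
    rw [hez]
    exact h1
  obtain ⟨i, j, hij, hdij⟩ := hN x r hr (fun i => e (y i)) hey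
  have hsep : dist (y i) z ≤ 1 / 2 * dist (y i) (y j) := by
    have h1 : dist z (y j) ≤ dist z (y i) + dist (y i) (y j) := dist_triangle _ _ _
    rw [hyd i, hyd j] at h1
    rw [dist_comm (y i) z, hyd i]
    have h2 : (4 : ℝ) ^ ((i : ℕ) + 1) * 4 ≤ 4 ^ ((j : ℕ) + 1) := by
      rw [← pow_succ]
      exact pow_le_pow_right₀ (by norm_num) (by have : (i : ℕ) < j := hij; omega)
    nlinarith [mul_le_mul_of_nonneg_right h2 hd₂.le, pow_pos (show (0:ℝ) < 4 by norm_num) ((i : ℕ) + 1)]
  have h3 := hB (y i) (hDB (hyD i)) z (hDB hzD) (y j) (hDB (hyD j)) hsep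
  have h4 := hlow i
  rw [norm_sub_rev] at h4
  have h5 : ‖e (y i) - e (y j)‖ < 1 / H ^ 2 * r := by rw [← dist_eq_norm]; exact hdij
  have h6 : r ≤ H * (H * ‖e (y i) - e (y j)‖) := h4.trans (by gcongr)
  have h7 : H * (H * ‖e (y i) - e (y j)‖) < r := by
    calc H * (H * ‖e (y i) - e (y j)‖) < H * (H * (1 / H ^ 2 * r)) := by gcongr
      _ = r := by field_simp
  linarith

end P198R
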