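import Mathlib
import Vale.Agent.P198.S2.Interface
import Vale.Agent.P198.RD.LocH

/-!
# P198, Stage 2, block RD: the transition maps satisfy `LocH` with one constant
-/

open Metric Set TopologicalSpace MeasureTheory Filter Topology
open P198S2 P198Q

namespace P198R

variable {G Z : Type*} [Group G] [MetricSpace Z] [MulAction G Z]

/-- `g` is a quasi-similarity near `z`. -/
theorem small_scale (q : QM G Z) (g : G) {z y₁ y₂ : Z} {T : ℝ} (hT : 0 ≤ T)
    (h1 : dist z y₁ ≤ q.s g / 8) (h2 : dist z y₂ ≤ q.s g / 8)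
    (h : dist z y₁ ≤ T * dist z y₂) :
    dist (g • z) (g • y₁) ≤ 4 * q.C ^ 2 * T * dist (g • z) (g • y₂) := by
  have hC : 0 < q.C := lt_of_lt_of_le one_pos q.one_le_C
  have hs := q.s_pos g
  set m := max (q.s g) (dist z (q.ζ g)) with hm
  set m₁ := max (q.s g) (dist y₁ (q.ζ g)) with hm₁
  set m₂ := max (q.s g) (dist y₂ (q.ζ g)) with hm₂
  have hm0 : 0 < m := lt_of_lt_of_le hs (le_max_left _ _)
  have hm₁0 : 0 < m₁ := lt_of_lt_of_le hs (le_max_left _ _)
  have hm₂0 : 0 < m₂ := lt_of_lt_of_le hs (le_max_left _ _)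
  have hsm : q.s g ≤ m := le_max_left _ _
  -- `m₂ ≤ 4 m₁`
  have ha : dist y₂ (q.ζ g) ≤ dist z y₂ + dist z y₁ + dist y₁ (q.ζ g) := by
    have e1 := dist_triangle y₂ z (q.ζ g)
    have e2 := dist_triangle z y₁ (q.ζ g)
    rw [dist_comm y₂ z] at e1
    linarith
  have hm12 : m₂ ≤ 4 * m₁ := by
    have e1 : q.s g ≤ m₁ := le_max_left _ _
    have e2 : dist y₁ (q.ζ g) ≤ m₁ := le_max_right _ _
    refine max_le (by linarith) ?_
    linarith
  have u1 := q.q1_upper g z y₁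
  have l2 := q.q1_lower g z y₂
  rw [← hm, ← hm₁] at u1
  rw [← hm, ← hm₂] at l2
  -- combine
  have k1 : dist (g • z) (g • y₁) * (m * m₁) ≤ 4 * q.C ^ 2 * T * dist (g • z) (g • y₂) * (m * m₁) := by
    have c1 : q.s g * dist z y₁ ≤ T * (q.s g * dist z y₂) := by
      have := mul_le_mul_of_nonneg_left h hs.le
      linarith
    have c2 : q.C * (q.s g * dist z y₁) ≤ q.C * (T * (q.s g * dist z y₂)) := by gcongr
    have c3 : q.C * (T * (q.s g * dist z y₂)) ≤
        q.C * (T * (q.C * (dist (g • z) (g • y₂) * (m * m₂)))) := by gcongr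
    have c4 : q.C * (T * (q.C * (dist (g • z) (g • y₂) * (m * m₂)))) ≤
        q.C * (T * (q.C * (dist (g • z) (g • y₂) * (m * (4 * m₁))))) := by gcongr
    calc _ ≤ _ := u1
      _ ≤ _ := c2
      _ ≤ _ := c3
      _ ≤ _ := c4
      _ = _ := by ring
  exact le_of_mul_le_mul_right k1 (by positivity)

theorem trans_source (hc : ∀ g : G, Continuous (fun x : Z => g • x))
    (e : OpenPartialHomeomorph Z ℂ) (g : G) (x : ℂ) :
    x ∈ (trans hc e g).source ↔ x ∈ e.target ∧ g • e.symm x ∈ e.source := by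
  simp [P198S2.trans, homeoOf]

theorem trans_apply (hc : ∀ g : G, Continuous (fun x : Z => g • x))
    (e : OpenPartialHomeomorph Z ℂ) (g : G) (x : ℂ) :
    trans hc e g x = e (g • e.symm x) := by
  simp [P198S2.trans, homeoOf]

/-- **Block RD**: small-scale roundness of all transition maps with one constant. -/
theorem locH_trans (q : QM G Z) (hc : ∀ g : G, Continuous (fun x : Z => g • x))
    (e : OpenPartialHomeomorph Z ℂ) (he : LChart e) :
    ∃ H : ℝ, 0 < H ∧ ∀ g : G, LocH (trans hc e g) H := by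
  have hC : 0 < q.C := lt_of_lt_of_le one_pos q.one_le_C
  obtain ⟨H₁', hH₁'⟩ := he.qs (1 / 2)
  set H₁ := max 1 H₁' with hH₁def
  obtain ⟨Λ, hΛ1, hΛ⟩ := claimA e H₁ (le_max_left _ _)
  obtain ⟨H₂', hH₂'⟩ := he.qs (4 * q.C ^ 2 * Λ)
  set H₂ := max 1 H₂' with hH₂def
  have hH₂0 : 0 < H₂ := lt_of_lt_of_le one_pos (le_max_left _ _)
  refine ⟨4 * H₂ ^ 2 / Real.pi, by positivity, ?_⟩
  intro g x₀ hx₀
  rw [trans_source] at hx₀
  obtain ⟨hx₀T, hgx₀⟩ := hx₀
  set z₀ := e.symm x₀ with hz₀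
  have hz₀S : z₀ ∈ e.source := e.map_target hx₀T
  obtain ⟨r₁, hr₁, hr₁S, hr₁H⟩ := hH₁' z₀ hz₀S
  obtain ⟨r₂, hr₂, hr₂S, hr₂H⟩ := hH₂' (g • z₀) hgx₀
  have hs := q.s_pos g
  -- a neighbourhood of `z₀`
  set V : Set Z := ball z₀ (min r₁ (q.s g / 16)) ∩ (fun y => g • y) ⁻¹' ball (g • z₀) r₂ with hV
  have hVo : IsOpen V := isOpen_ball.inter (isOpen_ball.preimage (hc g))
  have hz₀V : z₀ ∈ V := ⟨mem_ball_self (lt_min hr₁ (by positivity)), mem_ball_self hr₂⟩
  have hpre : e.target ∩ e.symm ⁻¹' V ∈ 𝓝 x₀ :=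
    (e.symm.isOpen_inter_preimage hVo).mem_nhds ⟨hx₀T, hz₀V⟩
  obtain ⟨ρ, hρ, hρV⟩ := Metric.mem_nhds_iff.1 hpre
  refine ⟨ρ / 2, half_pos hρ, ?_⟩
  intro x hx r hr hrρ
  have hball : closedBall x r ⊆ ball x₀ ρ := by
    intro w hw
    rw [mem_ball] at hx ⊢
    rw [mem_closedBall] at hw
    calc dist w x₀ ≤ dist w x + dist x x₀ := dist_triangle _ _ _
      _ < ρ := by linarith
  have hT : closedBall x r ⊆ e.target := fun w hw => (hρV (hball hw)).1
  have hVm : ∀ w ∈ closedBall x r, e.symm w ∈ V := fun w hw => (hρV (hball hw)).2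
  have hsrc : closedBall x r ⊆ (trans hc e g).source := by
    intro w hw
    rw [trans_source]
    exact ⟨hT hw, hr₂S (hVm w hw).2⟩
  have hxc : x ∈ closedBall x r := mem_closedBall_self hr.le
  refine diam_sq_le (trans hc e g) hr hsrc hH₂0.le ?_
  intro w₁ hw₁ w₂ hw₂
  have hw₂c := sphere_subset_closedBall hw₂
  have hA : dist (e.symm x) (e.symm w₁) ≤ Λ * dist (e.symm x) (e.symm w₂) := by
    refine hΛ (ball z₀ r₁) ?_ x r hr hT ?_ w₁ hw₁ w₂ hw₂
    · intro y hy z' hz' z'' hz'' hd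
      refine (hr₁H y hy z' hz' z'' hz'' hd).trans ?_
      gcongr
      exact le_max_right _ _
    · rintro _ ⟨w, hw, rfl⟩
      exact ball_subset_ball (min_le_left _ _) (hVm w hw).1
  have hdd : ∀ w ∈ closedBall x r, dist (e.symm x) (e.symm w) ≤ q.s g / 8 := by
    intro w hw
    have e1 := mem_ball.1 (hVm w hw).1
    have e2 := mem_ball.1 (hVm x hxc).1
    have e3 := min_le_right r₁ (q.s g / 16)
    have e4 := dist_triangle_right (e.symm x) (e.symm w) z₀
    linarith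
  have hB := small_scale q g (z := e.symm x) (y₁ := e.symm w₁) (y₂ := e.symm w₂)
    (by linarith : (0:ℝ) ≤ Λ) (hdd w₁ hw₁) (hdd w₂ hw₂c) hA
  have hfin := hr₂H (g • e.symm x) (hVm x hxc).2 (g • e.symm w₁) (hVm w₁ hw₁).2
    (g • e.symm w₂) (hVm w₂ hw₂c).2 hB
  rw [trans_apply, trans_apply, trans_apply, dist_comm, dist_comm (e (g • e.symm w₂)),
    dist_eq_norm, dist_eq_norm]
  refine hfin.trans ?_
  gcongr
  exact le_max_right _ _

end P198R
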