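import Mathlib
import Vale.Agent.P198.S2.Interface
import Vale.Agent.P198.ST.Field
import Vale.Agent.P198.RD.Main

/-!
# P198, Stage 2, block RD: the pseudogroup `PG` of the transition maps, countability of `G`
-/

open Metric Set TopologicalSpace MeasureTheory Filter Topology
open P198S2 P198Q

namespace P198R

variable {G Z : Type*} [Group G] [MetricSpace Z] [MulAction G Z]

/-- the pseudogroup of transition maps. -/
noncomputable def pg (hc : ∀ g : G, Continuous (fun x : Z => g • x))
    (e : OpenPartialHomeomorph Z ℂ) : P198ST.PG G where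
  γ := P198S2.trans hc e
  maps_inv := by
    intro g x hx
    rw [trans_source] at hx
    rw [trans_source, trans_apply, e.left_inv hx.2, inv_smul_smul]
    exact ⟨e.map_source hx.2, e.map_target hx.1⟩
  src_iff := by
    intro g h x hx
    rw [trans_source] at hx
    rw [trans_source, trans_source, trans_apply, e.left_inv hx.2, ← mul_smul]
    exact ⟨fun H => ⟨hx.1, H.2⟩, fun H => ⟨e.map_source hx.2, H.2⟩⟩
  comp := by
    intro g h x hx _
    rw [trans_source] at hx
    rw [trans_apply, trans_apply, trans_apply, e.left_inv hx.2, mul_smul]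
  one := by
    intro x hx
    rw [trans_source] at hx
    rw [trans_apply, one_smul, e.right_inv hx.1]

@[simp] theorem pg_γ (hc : ∀ g : G, Continuous (fun x : Z => g • x))
    (e : OpenPartialHomeomorph Z ℂ) (g : G) : (pg hc e).γ g = P198S2.trans hc e g := rfl

theorem trans_symm (hc : ∀ g : G, Continuous (fun x : Z => g • x))
    (e : OpenPartialHomeomorph Z ℂ) (g : G) :
    (P198S2.trans hc e g).symm = P198S2.trans hc e g⁻¹ := by
  ext x
  · rw [trans_apply]
    simp [P198S2.trans, homeoOf]
  · have h : (P198S2.trans hc e g).symm.symm x = P198S2.trans hc e g x := rfl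
    rw [h, trans_apply]
    simp [P198S2.trans, homeoOf]
  · have h : x ∈ (P198S2.trans hc e g).symm.source ↔ x ∈ (P198S2.trans hc e g).target := Iff.rfl
    rw [h, trans_source]
    simp [P198S2.trans, homeoOf]

/-- a group with a `QM` action on a compact space is countable. -/
theorem countable_of_qm [CompactSpace Z] (q : QM G Z) : Countable G := by
  classical
  by_cases hZ : Nonempty G
  swap
  · rw [not_nonempty_iff] at hZ
    infer_instance
  -- levels
  have hlev : ∀ n : ℕ, {g : G | (1 / 2 : ℝ) ^ (n + 1) < q.s g ∧ q.s g ≤ (1 / 2) ^ n}.Finite := by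
    intro n
    by_cases hne : {g : G | (1 / 2 : ℝ) ^ (n + 1) < q.s g ∧ q.s g ≤ (1 / 2) ^ n}.Nonempty
    swap
    · rw [not_nonempty_iff_eq_empty.1 hne]
      exact finite_empty
    obtain ⟨g, hg1, hg2⟩ := hne
    have hs := q.s_pos g
    set T := max 2 (diam (univ : Set Z) / q.s g) with hT
    obtain ⟨k, hk⟩ := q.q3 T
    refine (hk g).1.subset ?_
    rintro g' ⟨h1, h2⟩
    have hT2 : (2 : ℝ) ≤ T := le_max_left _ _
    have hT3 : diam (univ : Set Z) / q.s g ≤ T := le_max_right _ _
    have hs' := q.s_pos g'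
    have e2 : (1 / 2 : ℝ) ^ n = 2 * (1 / 2) ^ (n + 1) := by
      rw [pow_succ]; ring
    refine ⟨?_, ?_, ?_⟩
    · calc q.s g ≤ 2 * (1 / 2) ^ (n + 1) := by rw [← e2]; exact hg2
        _ ≤ 2 * q.s g' := by linarith
        _ ≤ T * q.s g' := by gcongr
    · calc q.s g' ≤ 2 * (1 / 2) ^ (n + 1) := by rw [← e2]; exact h2
        _ ≤ 2 * q.s g := by linarith
        _ ≤ T * q.s g := by gcongr
    · calc dist (q.ζ g) (q.ζ g') ≤ diam (univ : Set Z) :=
            dist_le_diam_of_mem isCompact_univ.isBounded (mem_univ _) (mem_univ _)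
        _ ≤ T * q.s g := by rwa [div_le_iff₀ hs] at hT3
  have hcov : (⋃ n : ℕ, {g : G | (1 / 2 : ℝ) ^ (n + 1) < q.s g ∧ q.s g ≤ (1 / 2) ^ n}) = univ := by
    rw [eq_univ_iff_forall]
    intro g
    obtain ⟨n, hn1, hn2⟩ := exists_nat_pow_near_of_lt_one (q.s_pos g) (q.s_le_one g)
      (by norm_num : (0:ℝ) < 1 / 2) (by norm_num : (1:ℝ) / 2 < 1)
    exact mem_iUnion.2 ⟨n, hn1, hn2⟩
  have : (univ : Set G).Countable := by
    rw [← hcov]
    exact countable_iUnion fun n => (hlev n).countable
  exact countable_univ_iff.1 this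

end P198R
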